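import Vale.Agent.P156.H266.Limit

/-! Transfer of limit laws under maps which are only defined (continuous) on an open set of full
measure, and open sets of full measure from tightness. -/

open MeasureTheory Filter Topology Set

namespace Vale.Agent.P156.Lim

noncomputable section

theorem prob_nonneg {α : Type*} (s : Finset α) (P : α → Prop) : 0 ≤ prob s P := by
  classical
  unfold prob avg
  exact div_nonneg (Finset.sum_nonneg fun ω _ => by split_ifs <;> norm_num) (Nat.cast_nonneg _)

theorem prob_mono {α : Type*} (s : Finset α) {P Q : α → Prop} (h : ∀ ω ∈ s, P ω → Q ω) :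
    prob s P ≤ prob s Q := by
  classical
  unfold prob
  refine avg_mono s fun ω hω => ?_
  by_cases h1 : P ω
  · rw [if_pos h1, if_pos (h ω hω h1)]
  · rw [if_neg h1]
    split_ifs <;> norm_num

theorem prob_or_le {α : Type*} (s : Finset α) (P Q : α → Prop) :
    prob s (fun ω => P ω ∨ Q ω) ≤ prob s P + prob s Q := by
  classical
  unfold prob
  rw [← avg_add]
  refine avg_mono s fun ω _ => ?_
  by_cases h1 : P ω <;> by_cases h2 : Q ω <;> simp [h1, h2]

variable {X Y Z : Type*} [TopologicalSpace X] [MeasurableSpace X] [BorelSpace X]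
  [TopologicalSpace Y] [MeasurableSpace Y] [BorelSpace Y] [TopologicalSpace Z] [MeasurableSpace Z]
  [BorelSpace Z] {ι : Type*} {L : Filter ι} {Ω : ι → Type*} {s : ∀ i, Finset (Ω i)}

/-- Probability of a set with null frontier. -/
theorem IsLimitLaw.tendsto_prob [HasOuterApproxClosed X] {S : ∀ i, Ω i → X} {μ : Measure X}
    [IsProbabilityMeasure μ] (hs : ∀ᶠ i in L, (s i).Nonempty) (h : IsLimitLaw L s S μ)
    {A : Set X} (hA : MeasurableSet A) (hf : μ (frontier A) = 0) :
    Tendsto (fun i => prob (s i) (fun ω => S i ω ∈ A)) L (𝓝 (μ A).toReal) := by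
  classical
  have h1 := h.tendsto_of_ae_continuousAt hs (F := A.indicator fun _ => (1 : ℝ))
    (measurable_const.indicator hA) (C := 1) (fun x => by
      by_cases hx : x ∈ A
      · rw [indicator_of_mem hx]; norm_num
      · rw [indicator_of_notMem hx]; norm_num) (by
      have h2 : ∀ᵐ x ∂μ, x ∉ frontier A := by
        rw [ae_iff]
        simpa using hf
      filter_upwards [h2] with x hx
      by_cases hx1 : x ∈ A
      · have h3 : x ∈ interior A := by
          by_contra h4
          exact hx ⟨subset_closure hx1, h4⟩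
        have h5 : A.indicator (fun _ => (1 : ℝ)) =ᶠ[𝓝 x] fun _ => 1 := by
          filter_upwards [mem_interior_iff_mem_nhds.1 h3] with y hy
          rw [indicator_of_mem hy]
        exact continuousAt_const.congr h5.symm
      · have h3 : x ∈ (closure A)ᶜ := by
          intro h4
          exact hx ⟨h4, fun h5 => hx1 (interior_subset h5)⟩
        have h5 : A.indicator (fun _ => (1 : ℝ)) =ᶠ[𝓝 x] fun _ => 0 := by
          filter_upwards [isClosed_closure.isOpen_compl.mem_nhds h3] with y hy
          rw [indicator_of_notMem fun h6 => hy (subset_closure h6)]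
        exact continuousAt_const.congr h5.symm)
  rw [integral_indicator_const _ hA, smul_eq_mul, mul_one] at h1
  refine h1.congr fun i => ?_
  unfold prob
  congr 1

/-- **Transfer** (W2): if `Y = Φ(X)` off small events, where `Φ` is continuous on an open set of
full measure, then the limit law of `Y` is the image of the limit law of `X`. -/
theorem IsLimitLaw.transfer [HasOuterApproxClosed X] [HasOuterApproxClosed Y] [L.NeBot]
    {S : ∀ i, Ω i → X} {T : ∀ i, Ω i → Y} {μ : Measure X} {ν : Measure Y}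
    [IsProbabilityMeasure μ] [IsProbabilityMeasure ν] (hs : ∀ᶠ i in L, (s i).Nonempty)
    (h : IsLimitLaw L s S μ) (h' : IsLimitLaw L s T ν) {Φ : X → Y} (hΦ : Measurable Φ)
    {V : Set X} (hV : IsOpen V) (hc : ContinuousOn Φ V) (hμ : μ Vᶜ = 0)
    {bad : ∀ i, Ω i → Prop} (hbad : Tendsto (fun i => prob (s i) (bad i)) L (𝓝 0))
    (hT : ∀ᶠ i in L, ∀ ω ∈ s i, ¬ bad i ω → S i ω ∈ V → T i ω = Φ (S i ω)) :
    ν = μ.map Φ := by
  classical
  have hVae : ∀ᵐ x ∂μ, x ∈ V := by
    rw [ae_iff]
    exact hμ
  have h1 : IsLimitLaw L s (fun i ω => Φ (S i ω)) (μ.map Φ) :=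
    h.map hs hΦ (by
      filter_upwards [hVae] with x hx
      exact (hc x hx).continuousAt (hV.mem_nhds hx))
  have hprob : Tendsto (fun i => prob (s i) (fun ω => S i ω ∈ Vᶜ)) L (𝓝 0) := by
    have := h.tendsto_prob hs (A := Vᶜ) hV.measurableSet.compl (measure_mono_null (by
      rw [frontier_compl]
      exact fun x hx => by
        rw [hV.frontier_eq] at hx
        exact hx.2) hμ)
    rwa [hμ, ENNReal.toReal_zero] at this
  have : IsProbabilityMeasure (μ.map Φ) := Measure.isProbabilityMeasure_map hΦ.aemeasurable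
  refine h'.eq_of_tendsto_sub h1 fun F => ?_
  have hsum : Tendsto (fun i => 2 * ‖F‖ * (prob (s i) (bad i) +
      prob (s i) (fun ω => S i ω ∈ Vᶜ))) L (𝓝 0) := by
    have := (hbad.add hprob).const_mul (2 * ‖F‖)
    simpa using this
  refine squeeze_zero_norm' ?_ hsum
  filter_upwards [hT] with i hi
  rw [Real.norm_eq_abs, ← avg_sub]
  refine (abs_avg_le _ _).trans ?_
  unfold prob
  rw [← avg_add, ← avg_const_mul]
  refine avg_mono _ fun ω hω => ?_
  have hF : |F (T i ω) - F (Φ (S i ω))| ≤ 2 * ‖F‖ := by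
    have a1 := F.norm_coe_le_norm (T i ω)
    have a2 := F.norm_coe_le_norm (Φ (S i ω))
    rw [Real.norm_eq_abs] at a1 a2
    calc |F (T i ω) - F (Φ (S i ω))| ≤ |F (T i ω)| + |F (Φ (S i ω))| := abs_sub _ _
      _ ≤ 2 * ‖F‖ := by linarith
  have hn := norm_nonneg F
  by_cases hb : bad i ω
  · rw [if_pos hb]
    split_ifs <;> nlinarith
  · by_cases hv : S i ω ∈ Vᶜ
    · rw [if_neg hb, if_pos hv]
      linarith
    · rw [if_neg hb, if_neg hv]
      have hv' : S i ω ∈ V := by
        by_contra h3
        exact hv h3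
      rw [hi ω hω hb hv']
      simp

/-- (W3) Open sets of full measure from tightness. -/
theorem IsLimitLaw.measure_compl_eq_zero [HasOuterApproxClosed X] [L.NeBot]
    {S : ∀ i, Ω i → X} {μ : Measure X}
    [IsProbabilityMeasure μ] (hs : ∀ᶠ i in L, (s i).Nonempty)
    (h : IsLimitLaw L s S μ) {V : Set X}
    (ht : ∀ ε : ℝ, 0 < ε → ∃ C : Set X, IsClosed C ∧ C ⊆ V ∧
      ∀ᶠ i in L, prob (s i) (fun ω => S i ω ∉ C) ≤ ε) : μ Vᶜ = 0 := by
  classical
  have key : ∀ ε : ℝ, 0 < ε → μ Vᶜ ≤ ENNReal.ofReal ε := by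
    intro ε hε
    obtain ⟨C, hC, hCV, hev⟩ := ht ε hε
    have h1 := ProbabilityMeasure.le_liminf_measure_open_of_tendsto
      (IsLimitLaw.tendsto_sampleProb (μ := ⟨μ, inferInstance⟩) hs h) hC.isOpen_compl
    refine (measure_mono (compl_subset_compl.2 hCV)).trans (h1.trans ?_)
    refine liminf_le_of_frequently_le' (Eventually.frequently ?_)
    filter_upwards [hs, hev] with i hi hi2
    have h2 := integral_sampleProb hi (⟨μ, inferInstance⟩ : ProbabilityMeasure X)
      (S := S) (F := Cᶜ.indicator fun _ => (1 : ℝ))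
      (measurable_const.indicator hC.measurableSet.compl)
    rw [integral_indicator_const _ hC.measurableSet.compl, smul_eq_mul, mul_one] at h2
    have h3 : avg (s i) (fun ω => Cᶜ.indicator (fun _ => (1 : ℝ)) (S i ω)) =
        prob (s i) (fun ω => S i ω ∉ C) := by
      unfold prob
      congr 1
    rw [h3] at h2
    rw [← ENNReal.ofReal_toReal (measure_ne_top _ Cᶜ)]
    exact ENNReal.ofReal_le_ofReal (h2.le.trans hi2)
  by_contra hne
  have hlt : μ Vᶜ ≠ ⊤ := measure_ne_top _ _
  have hpos : 0 < (μ Vᶜ).toReal := ENNReal.toReal_pos hne hlt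
  have h1 := key ((μ Vᶜ).toReal / 2) (by positivity)
  have h2 := ENNReal.toReal_mono ENNReal.ofReal_ne_top h1
  rw [ENNReal.toReal_ofReal (by positivity)] at h2
  linarith

end

end Vale.Agent.P156.Lim
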