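import Vale.Agent.P156.R2.Defs
import Vale.Agent.P156.F.Basic

/-! Limit measures on compact spaces along an ultrafilter, and convergence of integrals of bounded
functions which are continuous almost everywhere for the limit (any filter). -/

open MeasureTheory Filter Topology Set

namespace Vale.Agent.P156.Lim

noncomputable section

/-! ### Almost everywhere continuous test functions -/

section AE

variable {X : Type*} [TopologicalSpace X] [MeasurableSpace X] [OpensMeasurableSpace X]
  [HasOuterApproxClosed X] {ι : Type*} {L : Filter ι}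

omit [MeasurableSpace X] [OpensMeasurableSpace X] [HasOuterApproxClosed X] in
theorem frontier_level_subset {F : X → ℝ} (t : ℝ) :
    frontier {x | t < F x} ⊆ {x | ¬ ContinuousAt F x} ∪ {x | F x = t} := by
  intro x hx
  by_contra h
  rw [mem_union, not_or] at h
  obtain ⟨h1, h2⟩ := h
  have hc : ContinuousAt F x := by
    by_contra h'
    exact h1 h'
  rcases lt_or_gt_of_ne (show F x ≠ t from h2) with h3 | h3
  · have : {x | t < F x}ᶜ ∈ 𝓝 x := by
      filter_upwards [hc.eventually (gt_mem_nhds h3)] with y hy
      simp only [mem_compl_iff, mem_ofPred_eq, not_lt]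
      exact le_of_lt hy
    exact (mem_interior_iff_mem_nhds.2 this) |> fun h => by
      rw [interior_compl] at h
      exact h (frontier_subset_closure hx)
  · have : {x | t < F x} ∈ 𝓝 x := hc.eventually (lt_mem_nhds h3)
    exact hx.2 (mem_interior_iff_mem_nhds.2 this)

theorem exists_grid (bad : Set ℝ) (hbad : bad.Countable) (a ε : ℝ) (hε : 0 < ε) (m : ℕ) :
    ∃ s, a - ε < s ∧ s < a ∧ ∀ j ≤ m, s + j * ε ∉ bad := by
  have h1 : (⋃ j : ℕ, (fun x => x - (j : ℝ) * ε) '' bad).Countable :=
    countable_iUnion fun j => hbad.image _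
  obtain ⟨s, hs, hs1⟩ := (h1.dense_compl ℝ).exists_between (show a - ε < a by linarith)
  refine ⟨s, hs1.1, hs1.2, fun j _ hj => hs ?_⟩
  rw [mem_iUnion]
  exact ⟨j, s + j * ε, hj, by ring⟩

/-- Bounded measurable functions which are continuous at almost every point of the limit measure
are test functions for the weak convergence (along any filter). -/
theorem tendsto_integral_of_ae_continuousAt {μs : ι → ProbabilityMeasure X}
    {μ : ProbabilityMeasure X} (h : Tendsto μs L (𝓝 μ)) {F : X → ℝ} (hF : Measurable F) {C : ℝ}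
    (hC : ∀ x, |F x| ≤ C) (hc : ∀ᵐ x ∂(μ : Measure X), ContinuousAt F x) :
    Tendsto (fun i => ∫ x, F x ∂(μs i : Measure X)) L (𝓝 (∫ x, F x ∂(μ : Measure X))) := by
  rw [Metric.tendsto_nhds]
  intro ε₀ hε₀
  set ε := ε₀ / 4 with hεdef
  have hε : 0 < ε := by positivity
  obtain ⟨m, hm⟩ := exists_nat_gt ((2 * |C| + 2 * ε) / ε)
  rw [div_lt_iff₀ hε] at hm
  have hbad : {t : ℝ | 0 < (μ : Measure X) {x | F x = t}}.Countable :=
    Measure.countable_meas_level_set_pos hF
  obtain ⟨s, hs1, hs2, hs3⟩ := exists_grid _ hbad (-|C|) ε hε m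
  -- the step function
  set E : ℕ → Set X := fun j => {x | s + j * ε < F x} with hE
  have hEm : ∀ j, MeasurableSet (E j) := fun j => measurableSet_lt measurable_const hF
  set G : X → ℝ := fun x => s + ∑ j ∈ Finset.range m, (E j).indicator (fun _ => ε) x with hG
  have hGF : ∀ x, |G x - F x| ≤ ε := by
    intro x
    have hFx := abs_le.1 ((hC x).trans (le_abs_self C))
    -- number of grid points below `F x`
    have key : ∀ k : ℕ, (s + k * ε < F x → s + (k : ℝ) * ε ≤
        s + ∑ j ∈ Finset.range k, (E j).indicator (fun _ => ε) x) ∧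
        (s + ∑ j ∈ Finset.range k, (E j).indicator (fun _ => ε) x < F x + ε) := by
      intro k
      induction k with
      | zero =>
        constructor
        · intro _; simp
        · simp only [Finset.range_zero, Finset.sum_empty, add_zero]
          linarith
      | succ k ih =>
        rw [Finset.sum_range_succ]
        constructor
        · intro hk
          push_cast at hk ⊢
          have h1 : s + k * ε < F x := by nlinarith
          rw [indicator_of_mem (show x ∈ E k from h1)]
          linarith [ih.1 h1]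
        · by_cases h1 : x ∈ E k
          · rw [indicator_of_mem h1]
            have h2 : ∑ j ∈ Finset.range k, (E j).indicator (fun _ => ε) x ≤ k * ε := by
              calc ∑ j ∈ Finset.range k, (E j).indicator (fun _ => ε) x
                  ≤ ∑ j ∈ Finset.range k, ε :=
                    Finset.sum_le_sum fun j _ => indicator_le_self' (fun _ _ => hε.le) x
                _ = k * ε := by simp
            have h3 : s + k * ε < F x := h1
            linarith
          · rw [indicator_of_notMem h1, add_zero]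
            exact ih.2
    have hlow : F x ≤ G x + ε := by
      by_contra hcon
      push Not at hcon
      -- all `j < m` satisfy `s + j ε < F x`
      have : ∀ k ≤ m, s + (k : ℝ) * ε < F x ∧ s + (k : ℝ) * ε ≤
          s + ∑ j ∈ Finset.range k, (E j).indicator (fun _ => ε) x := by
        intro k
        induction k with
        | zero =>
          intro _
          have := hFx.1
          have hs4 : s + ((0 : ℕ) : ℝ) * ε < F x := by simp; linarith
          exact ⟨hs4, (key 0).1 hs4⟩
        | succ k ih =>
          intro hk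
          obtain ⟨i1, i2⟩ := ih (by omega)
          have h5 : ∑ j ∈ Finset.range k, (E j).indicator (fun _ => ε) x ≤
              ∑ j ∈ Finset.range m, (E j).indicator (fun _ => ε) x :=
            Finset.sum_le_sum_of_subset_of_nonneg (Finset.range_mono (by omega))
              fun j _ _ => indicator_nonneg (fun _ _ => hε.le) x
          have h6 : s + ((k + 1 : ℕ) : ℝ) * ε < F x := by
            push_cast
            have : G x = s + ∑ j ∈ Finset.range m, (E j).indicator (fun _ => ε) x := rfl
            linarith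
          exact ⟨h6, (key (k + 1)).1 h6⟩
      have h7 := (this m le_rfl).1
      have := hFx.2
      linarith
    rw [abs_le]
    constructor
    · linarith
    · have := (key m).2
      have h8 : G x = s + ∑ j ∈ Finset.range m, (E j).indicator (fun _ => ε) x := rfl
      linarith
  have hGm : Measurable G := measurable_const.add
    (Finset.measurable_sum _ fun j _ => measurable_const.indicator (hEm j))
  have hint : ∀ ν : ProbabilityMeasure X, ∫ x, G x ∂(ν : Measure X) =
      s + ∑ j ∈ Finset.range m, ((ν : Measure X) (E j)).toReal * ε := by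
    intro ν
    rw [hG, integral_add (integrable_const _)
      (integrable_finsetSum _ fun j _ => (integrable_const ε).indicator (hEm j)),
      integral_finsetSum _ fun j _ => (integrable_const ε).indicator (hEm j)]
    simp only [integral_const, probReal_univ, smul_eq_mul, one_mul]
    congr 1
    refine Finset.sum_congr rfl fun j _ => ?_
    rw [integral_indicator_const _ (hEm j), smul_eq_mul]
    rfl
  have hlim : Tendsto (fun i => ∫ x, G x ∂(μs i : Measure X)) L
      (𝓝 (∫ x, G x ∂(μ : Measure X))) := by
    simp only [hint]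
    refine tendsto_const_nhds.add (tendsto_finsetSum _ fun j hj => ?_)
    refine Tendsto.mul_const _ ?_
    have hnull : (μ : Measure X) (frontier (E j)) = 0 := by
      refine measure_mono_null (frontier_level_subset _) (measure_union_null hc ?_)
      have := hs3 j (Finset.mem_range.1 hj).le
      simp only [mem_ofPred_eq, not_lt, nonpos_iff_eq_zero] at this
      exact this
    have := ProbabilityMeasure.tendsto_measure_of_null_frontier_of_tendsto' h hnull
    exact (ENNReal.tendsto_toReal (measure_ne_top _ _)).comp this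
  have hFi : ∀ ν : ProbabilityMeasure X, Integrable F (ν : Measure X) := fun ν =>
    Integrable.of_bound hF.aestronglyMeasurable C
      (Eventually.of_forall fun x => by rw [Real.norm_eq_abs]; exact hC x)
  have hGi : ∀ ν : ProbabilityMeasure X, Integrable G (ν : Measure X) := fun ν =>
    Integrable.of_bound hGm.aestronglyMeasurable (C + ε)
      (Eventually.of_forall fun x => by
        rw [Real.norm_eq_abs]
        have h1 := hGF x
        have h2 := hC x
        have h3 : G x = (G x - F x) + F x := by ring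
        rw [h3]
        exact (abs_add_le _ _).trans (by linarith))
  have hdiff : ∀ ν : ProbabilityMeasure X,
      |∫ x, G x ∂(ν : Measure X) - ∫ x, F x ∂(ν : Measure X)| ≤ ε := by
    intro ν
    rw [← integral_sub (hGi ν) (hFi ν)]
    have := norm_integral_le_of_norm_le_const (μ := (ν : Measure X)) (f := fun x => G x - F x)
      (C := ε) (Eventually.of_forall fun x => by rw [Real.norm_eq_abs]; exact hGF x)
    simpa using this
  filter_upwards [Metric.tendsto_nhds.1 hlim ε hε] with i hi
  rw [Real.dist_eq] at hi ⊢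
  have a1 := abs_le.1 (hdiff (μs i))
  have a2 := abs_le.1 (hdiff μ)
  have a3 := abs_lt.1 hi
  rw [abs_lt]
  constructor <;> linarith [a1.1, a1.2, a2.1, a2.2, a3.1, a3.2]

/-- **Mapping theorem** for maps which are continuous at almost every point of the limit. -/
theorem tendsto_map_of_ae_continuousAt {Y : Type*} [TopologicalSpace Y] [MeasurableSpace Y]
    [BorelSpace Y] {μs : ι → ProbabilityMeasure X}
    {μ : ProbabilityMeasure X} (h : Tendsto μs L (𝓝 μ)) {f : X → Y} (hf : Measurable f)
    (hc : ∀ᵐ x ∂(μ : Measure X), ContinuousAt f x) :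
    Tendsto (fun i => (μs i).map hf.aemeasurable) L (𝓝 (μ.map hf.aemeasurable)) := by
  rw [ProbabilityMeasure.tendsto_iff_forall_integral_tendsto]
  intro G
  have key : ∀ ν : ProbabilityMeasure X, ∫ y, G y ∂((ν.map hf.aemeasurable : ProbabilityMeasure Y)
      : Measure Y) = ∫ x, G (f x) ∂(ν : Measure X) := by
    intro ν
    rw [ProbabilityMeasure.toMeasure_map]
    exact integral_map hf.aemeasurable G.continuous.measurable.aestronglyMeasurable
  simp only [key]
  refine tendsto_integral_of_ae_continuousAt h (G.continuous.measurable.comp hf)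
    (C := ‖G‖) (fun x => ?_) ?_
  · have := G.norm_coe_le_norm (f x)
    rwa [Real.norm_eq_abs] at this
  · filter_upwards [hc] with x hx
    exact G.continuous.continuousAt.comp hx

end AE

/-! ### Limits along ultrafilters -/

section Ultra

variable {X : Type*} [TopologicalSpace X] [CompactSpace X] [T2Space X] [MeasurableSpace X]
  [BorelSpace X]

theorem exists_limit {ι : Type*} (𝒰 : Ultrafilter ι) (μs : ι → ProbabilityMeasure X) :
    ∃ μ : ProbabilityMeasure X, Tendsto μs 𝒰 (𝓝 μ) := by
  obtain ⟨μ, -, hμ⟩ := isCompact_univ.ultrafilter_le_nhds (𝒰.map μs) (by simp)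
  exact ⟨μ, hμ⟩

end Ultra

/-! ### Laws of uniform finite samples and their limits -/

section Sample

open Classical in
/-- Law of `S` under the uniform distribution on the finite set `s` (zero if `s` is empty). -/
def sampleLaw {Ω X : Type*} [MeasurableSpace X] (s : Finset Ω) (S : Ω → X) : Measure X :=
  (s.card : ENNReal)⁻¹ • ∑ ω ∈ s, Measure.dirac (S ω)

theorem isProbabilityMeasure_sampleLaw {Ω X : Type*} [MeasurableSpace X] {s : Finset Ω}
    (hs : s.Nonempty) (S : Ω → X) : IsProbabilityMeasure (sampleLaw s S) := by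
  constructor
  have h : (s.card : ENNReal) ≠ 0 := by
    simpa using hs.card_pos.ne'
  simp only [sampleLaw, Measure.smul_apply, Measure.finsetSum_apply, measure_univ,
    Finset.sum_const, smul_eq_mul, nsmul_eq_mul, mul_one]
  exact ENNReal.inv_mul_cancel h (ENNReal.natCast_ne_top _)

theorem integral_sampleLaw {Ω X : Type*} [MeasurableSpace X] (s : Finset Ω) (S : Ω → X)
    {F : X → ℝ} (hF : Measurable F) :
    ∫ x, F x ∂(sampleLaw s S) = avg s (fun ω => F (S ω)) := by
  rw [sampleLaw, integral_smul_measure, integral_finsetSum_measure]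
  · simp only [integral_dirac' _ _ hF.stronglyMeasurable]
    rw [avg, ENNReal.toReal_inv, ENNReal.toReal_natCast, smul_eq_mul, div_eq_inv_mul]
  · intro ω _
    exact (integrable_dirac' hF.stronglyMeasurable (by simp))

variable {X Y : Type*} [TopologicalSpace X] [MeasurableSpace X] [BorelSpace X]
  [TopologicalSpace Y] [MeasurableSpace Y] [BorelSpace Y]
  {ι : Type*} {L : Filter ι} {Ω : ι → Type*}

/-- `μ` is the limit law of `S i ω`, `ω` uniform in `s i`, along the filter `L` (test functions:
all bounded continuous functions; on a compact space, all continuous functions). -/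
def IsLimitLaw (L : Filter ι) (s : ∀ i, Finset (Ω i)) (S : ∀ i, Ω i → X) (μ : Measure X) : Prop :=
  ∀ F : BoundedContinuousFunction X ℝ,
    Tendsto (fun i => avg (s i) (fun ω => F (S i ω))) L (𝓝 (∫ x, F x ∂μ))

variable {s : ∀ i, Finset (Ω i)} {S : ∀ i, Ω i → X} {μ : Measure X}

/-- The sample laws as probability measures (junk `μ` for empty samples). -/
def sampleProb (s : ∀ i, Finset (Ω i)) (S : ∀ i, Ω i → X) (μ : ProbabilityMeasure X) (i : ι) :
    ProbabilityMeasure X := by
  classical
  exact if h : (s i).Nonempty then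
    (⟨sampleLaw (s i) (S i), isProbabilityMeasure_sampleLaw h _⟩ : ProbabilityMeasure X)
    else μ

omit [TopologicalSpace X] [BorelSpace X] in
theorem integral_sampleProb {i : ι} (h : (s i).Nonempty) (μ : ProbabilityMeasure X) {F : X → ℝ}
    (hF : Measurable F) :
    ∫ x, F x ∂(sampleProb s S μ i : Measure X) = avg (s i) (fun ω => F (S i ω)) := by
  rw [← integral_sampleLaw _ _ hF]
  have h1 : sampleProb s S μ i =
      (⟨sampleLaw (s i) (S i), isProbabilityMeasure_sampleLaw h _⟩ : ProbabilityMeasure X) := by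
    unfold sampleProb
    exact dif_pos h
  rw [h1]
  rfl

theorem IsLimitLaw.tendsto_sampleProb (hs : ∀ᶠ i in L, (s i).Nonempty)
    {μ : ProbabilityMeasure X} (h : IsLimitLaw L s S (μ : Measure X)) :
    Tendsto (sampleProb s S μ) L (𝓝 μ) := by
  rw [ProbabilityMeasure.tendsto_iff_forall_integral_tendsto]
  intro F
  refine (h F).congr' ?_
  filter_upwards [hs] with i hi
  exact (integral_sampleProb hi μ F.continuous.measurable).symm

theorem IsLimitLaw.unique [HasOuterApproxClosed X] [L.NeBot] [IsFiniteMeasure μ]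
    {ν : Measure X} [IsFiniteMeasure ν]
    (h : IsLimitLaw L s S μ) (h' : IsLimitLaw L s S ν) : μ = ν :=
  ext_of_forall_integral_eq_of_IsFiniteMeasure fun F => tendsto_nhds_unique (h F) (h' F)

/-- Two families with the same limits of averages of continuous functions. -/
theorem IsLimitLaw.eq_of_tendsto_sub [HasOuterApproxClosed X] [L.NeBot] [IsFiniteMeasure μ]
    {ν : Measure X} [IsFiniteMeasure ν] {Ω' : ι → Type*} {s' : ∀ i, Finset (Ω' i)}
    {S' : ∀ i, Ω' i → X} (h : IsLimitLaw L s S μ) (h' : IsLimitLaw L s' S' ν)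
    (hd : ∀ F : BoundedContinuousFunction X ℝ,
      Tendsto (fun i => avg (s i) (fun ω => F (S i ω)) - avg (s' i) (fun ω => F (S' i ω))) L
        (𝓝 0)) : μ = ν := by
  refine ext_of_forall_integral_eq_of_IsFiniteMeasure fun F => ?_
  have h1 := ((h F).sub (h' F)).sub (hd F)
  have h2 : Tendsto (fun _ : ι => (0 : ℝ)) L
      (𝓝 (∫ x, F x ∂μ - ∫ x, F x ∂ν - 0)) := by
    refine h1.congr fun i => ?_
    ring
  have := tendsto_nhds_unique tendsto_const_nhds h2
  linarith

/-- Bounded measurable test functions, continuous almost everywhere for the limit law. -/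
theorem IsLimitLaw.tendsto_of_ae_continuousAt [HasOuterApproxClosed X] [IsProbabilityMeasure μ]
    (hs : ∀ᶠ i in L, (s i).Nonempty) (h : IsLimitLaw L s S μ)
    {F : X → ℝ} (hF : Measurable F) {C : ℝ} (hC : ∀ x, |F x| ≤ C)
    (hc : ∀ᵐ x ∂μ, ContinuousAt F x) :
    Tendsto (fun i => avg (s i) (fun ω => F (S i ω))) L (𝓝 (∫ x, F x ∂μ)) := by
  have h1 := IsLimitLaw.tendsto_sampleProb (μ := ⟨μ, inferInstance⟩) hs h
  refine (tendsto_integral_of_ae_continuousAt h1 hF hC hc).congr' ?_
  filter_upwards [hs] with i hi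
  exact integral_sampleProb hi _ hF

/-- Mapping theorem for limit laws. -/
theorem IsLimitLaw.map [HasOuterApproxClosed X] [IsProbabilityMeasure μ]
    (hs : ∀ᶠ i in L, (s i).Nonempty) (h : IsLimitLaw L s S μ)
    {f : X → Y} (hf : Measurable f) (hc : ∀ᵐ x ∂μ, ContinuousAt f x) :
    IsLimitLaw L s (fun i ω => f (S i ω)) (μ.map f) := by
  intro F
  rw [integral_map hf.aemeasurable F.continuous.measurable.aestronglyMeasurable]
  refine h.tendsto_of_ae_continuousAt hs (F.continuous.measurable.comp hf) (C := ‖F‖)
    (fun x => ?_) ?_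
  · have := F.norm_coe_le_norm (f x)
    rwa [Real.norm_eq_abs] at this
  · filter_upwards [hc] with x hx
    exact F.continuous.continuousAt.comp hx

/-- Mapping theorem for continuous maps. -/
theorem IsLimitLaw.map_continuous (h : IsLimitLaw L s S μ) {f : X → Y} (hf : Continuous f) :
    IsLimitLaw L s (fun i ω => f (S i ω)) (μ.map f) := by
  intro F
  rw [integral_map hf.measurable.aemeasurable F.continuous.measurable.aestronglyMeasurable]
  exact h (F.compContinuous ⟨f, hf⟩)

omit [BorelSpace X] in
/-- A limit law of uniform samples is a probability measure. -/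
theorem IsLimitLaw.isProbabilityMeasure [L.NeBot] [IsFiniteMeasure μ]
    (hs : ∀ᶠ i in L, (s i).Nonempty) (h : IsLimitLaw L s S μ) : IsProbabilityMeasure μ := by
  have h1 := h (BoundedContinuousFunction.const X 1)
  simp only [BoundedContinuousFunction.const_apply, integral_const, smul_eq_mul, mul_one] at h1
  have h2 : Tendsto (fun i => avg (s i) (fun _ => (1 : ℝ))) L (𝓝 1) := by
    refine tendsto_const_nhds.congr' ?_
    filter_upwards [hs] with i hi
    have : ((s i).card : ℝ) ≠ 0 := by exact_mod_cast hi.card_pos.ne'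
    simp [avg, this]
  have h3 := tendsto_nhds_unique h1 h2
  constructor
  have h4 : (μ univ).toReal = 1 := h3
  rw [← ENNReal.ofReal_toReal (measure_ne_top μ univ), h4, ENNReal.ofReal_one]

/-- Existence of limit laws along ultrafilters on compact spaces. -/
theorem exists_isLimitLaw [CompactSpace X] [T2Space X] (𝒰 : Ultrafilter ι)
    (s : ∀ i, Finset (Ω i)) (S : ∀ i, Ω i → X) (hs : ∀ᶠ i in (𝒰 : Filter ι), (s i).Nonempty) :
    ∃ μ : Measure X, IsProbabilityMeasure μ ∧ IsLimitLaw (𝒰 : Filter ι) s S μ := by
  obtain ⟨i₀, hi₀⟩ := hs.exists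
  obtain ⟨ω₀, hω₀⟩ := hi₀
  set μ₀ : ProbabilityMeasure X := ⟨Measure.dirac (S i₀ ω₀), inferInstance⟩ with hμ₀
  obtain ⟨μ, hμ⟩ := exists_limit 𝒰 (sampleProb s S μ₀)
  refine ⟨μ, inferInstance, fun F => ?_⟩
  rw [ProbabilityMeasure.tendsto_iff_forall_integral_tendsto] at hμ
  refine (hμ F).congr' ?_
  filter_upwards [hs] with i hi
  exact integral_sampleProb hi μ₀ F.continuous.measurable

omit [MeasurableSpace X] [BorelSpace X] in
/-- Modulus of continuity with respect to a continuous separating function. -/
theorem exists_modulus [CompactSpace X] {δ : X → X → ℝ}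
    (hδ : Continuous fun p : X × X => δ p.1 p.2) (h0 : ∀ x y, 0 ≤ δ x y)
    (h1 : ∀ x y, δ x y = 0 → x = y) (F : C(X, ℝ)) {ε : ℝ} (hε : 0 < ε) :
    ∃ C : ℝ, 0 ≤ C ∧ ∀ x y, |F x - F y| ≤ ε + C * δ x y := by
  set K : Set (X × X) := {p | ε ≤ |F p.1 - F p.2|} with hK
  have hKc : IsCompact K := by
    refine IsClosed.isCompact ?_
    exact isClosed_le continuous_const
      (((F.continuous.comp continuous_fst).sub (F.continuous.comp continuous_snd)).abs)
  obtain ⟨B, hB⟩ := (isCompact_univ (X := X × X)).bddAbove_image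
    (f := fun p => |F p.1 - F p.2|)
    (((F.continuous.comp continuous_fst).sub (F.continuous.comp continuous_snd)).abs.continuousOn)
  have hB' : ∀ x y, |F x - F y| ≤ B := fun x y => hB ⟨(x, y), mem_univ _, rfl⟩
  rcases K.eq_empty_or_nonempty with hKe | hKn
  · refine ⟨0, le_rfl, fun x y => ?_⟩
    have : (x, y) ∉ K := by rw [hKe]; exact notMem_empty _
    have h2 : ¬ ε ≤ |F x - F y| := this
    push Not at h2
    linarith
  · obtain ⟨p₀, hp₀, hmin⟩ := hKc.exists_isMinOn hKn hδ.continuousOn
    have hpos : 0 < δ p₀.1 p₀.2 := by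
      refine lt_of_le_of_ne (h0 _ _) fun h => ?_
      have h2 := h1 _ _ h.symm
      have h3 : ε ≤ |F p₀.1 - F p₀.2| := hp₀
      rw [h2] at h3
      simp only [sub_self, abs_zero] at h3
      linarith
    refine ⟨|B| / δ p₀.1 p₀.2, by positivity, fun x y => ?_⟩
    by_cases hxy : (x, y) ∈ K
    · have h2 : δ p₀.1 p₀.2 ≤ δ x y := hmin hxy
      have h3 : |B| ≤ |B| / δ p₀.1 p₀.2 * δ x y := by
        rw [div_mul_eq_mul_div, le_div_iff₀ hpos]
        exact mul_le_mul_of_nonneg_left h2 (abs_nonneg _)
      linarith [hB' x y, le_abs_self B]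
    · have h2 : ¬ ε ≤ |F x - F y| := hxy
      push Not at h2
      have h3 : 0 ≤ |B| / δ p₀.1 p₀.2 * δ x y := mul_nonneg (by positivity) (h0 _ _)
      linarith

theorem avg_mono {α : Type*} (s : Finset α) {Φ Ψ : α → ℝ} (h : ∀ ω ∈ s, Φ ω ≤ Ψ ω) :
    avg s Φ ≤ avg s Ψ := by
  unfold avg
  exact div_le_div_of_nonneg_right (Finset.sum_le_sum h) (Nat.cast_nonneg _)

theorem avg_sub {α : Type*} (s : Finset α) (Φ Ψ : α → ℝ) :
    avg s (fun ω => Φ ω - Ψ ω) = avg s Φ - avg s Ψ := by
  unfold avg
  rw [Finset.sum_sub_distrib, sub_div]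

theorem avg_add {α : Type*} (s : Finset α) (Φ Ψ : α → ℝ) :
    avg s (fun ω => Φ ω + Ψ ω) = avg s Φ + avg s Ψ := by
  unfold avg
  rw [Finset.sum_add_distrib, add_div]

theorem avg_const_mul {α : Type*} (s : Finset α) (c : ℝ) (Φ : α → ℝ) :
    avg s (fun ω => c * Φ ω) = c * avg s Φ := by
  unfold avg
  rw [← Finset.mul_sum, mul_div_assoc]

theorem avg_const {α : Type*} {s : Finset α} (hs : s.Nonempty) (c : ℝ) :
    avg s (fun _ => c) = c := by
  have : ((s.card : ℕ) : ℝ) ≠ 0 := by exact_mod_cast hs.card_pos.ne'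
  simp only [avg, Finset.sum_const, nsmul_eq_mul]
  field_simp

theorem abs_avg_le {α : Type*} (s : Finset α) (Φ : α → ℝ) :
    |avg s Φ| ≤ avg s (fun ω => |Φ ω|) := by
  unfold avg
  rw [abs_div, Nat.abs_cast]
  exact div_le_div_of_nonneg_right (Finset.abs_sum_le_sum_abs _ _) (Nat.cast_nonneg _)

omit [MeasurableSpace X] [BorelSpace X] in
/-- **Perturbation**: if `S` and `S'` are close in probability (measured by the average of a
continuous separating function `δ` on the compact space `X`), then the averages of every continuous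
function have the same limits. -/
theorem tendsto_avg_sub_of_close [CompactSpace X] {δ : X → X → ℝ}
    (hδ : Continuous fun p : X × X => δ p.1 p.2) (h0 : ∀ x y, 0 ≤ δ x y)
    (h1 : ∀ x y, δ x y = 0 → x = y) {S' : ∀ i, Ω i → X}
    (hs : ∀ᶠ i in L, (s i).Nonempty)
    (hc : Tendsto (fun i => avg (s i) (fun ω => δ (S i ω) (S' i ω))) L (𝓝 0)) (F : C(X, ℝ)) :
    Tendsto (fun i => avg (s i) (fun ω => F (S i ω)) - avg (s i) (fun ω => F (S' i ω))) L
      (𝓝 0) := by
  rw [Metric.tendsto_nhds]
  intro ε hε
  obtain ⟨C, hC0, hC⟩ := exists_modulus hδ h0 h1 F (half_pos (half_pos hε))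
  have h2 : Tendsto (fun i => C * avg (s i) (fun ω => δ (S i ω) (S' i ω))) L (𝓝 0) := by
    simpa using hc.const_mul C
  filter_upwards [hs, h2.eventually (gt_mem_nhds (half_pos hε))] with i hi h3
  rw [Real.dist_eq, sub_zero, ← avg_sub]
  refine (abs_avg_le _ _).trans_lt ?_
  have h4 : avg (s i) (fun ω => |F (S i ω) - F (S' i ω)|) ≤
      avg (s i) (fun ω => ε / 2 / 2 + C * δ (S i ω) (S' i ω)) :=
    avg_mono _ fun ω _ => hC _ _
  rw [avg_add, avg_const hi, avg_const_mul] at h4
  linarith

omit [BorelSpace X] in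
/-- Perturbation of limit laws. -/
theorem IsLimitLaw.of_close [CompactSpace X] {δ : X → X → ℝ}
    (hδ : Continuous fun p : X × X => δ p.1 p.2) (h0 : ∀ x y, 0 ≤ δ x y)
    (h1 : ∀ x y, δ x y = 0 → x = y) {S' : ∀ i, Ω i → X}
    (hs : ∀ᶠ i in L, (s i).Nonempty) (h : IsLimitLaw L s S μ)
    (hc : Tendsto (fun i => avg (s i) (fun ω => δ (S i ω) (S' i ω))) L (𝓝 0)) :
    IsLimitLaw L s S' μ := by
  intro F
  have h2 := (h F).sub (tendsto_avg_sub_of_close (F := F.toContinuousMap) hδ h0 h1 hs hc)
  rw [sub_zero] at h2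
  refine h2.congr fun i => ?_
  simp

/-! ### Checks on the space of symmetric unitary matrices -/

example {κ : Type} [Fintype κ] [DecidableEq κ] (𝒰 : Ultrafilter ι)
    (s : ∀ i, Finset (Ω i)) (S : ∀ i, Ω i → F.SymU κ) (hs : ∀ᶠ i in (𝒰 : Filter ι), (s i).Nonempty) :
    ∃ μ : Measure (F.SymU κ), IsProbabilityMeasure μ ∧ IsLimitLaw (𝒰 : Filter ι) s S μ :=
  exists_isLimitLaw 𝒰 s S hs

example {κ κ' : Type} [Fintype κ] [DecidableEq κ] [Fintype κ'] [DecidableEq κ']
    {s : ∀ i, Finset (Ω i)} {S : ∀ i, Ω i → F.SymU κ} (hs : ∀ᶠ i in L, (s i).Nonempty)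
    {μ : Measure (F.SymU κ)} [IsProbabilityMeasure μ] (h : IsLimitLaw L s S μ)
    {f : F.SymU κ → F.SymU κ'} (hf : Measurable f) (hc : ∀ᵐ x ∂μ, ContinuousAt f x) :
    IsLimitLaw L s (fun i ω => f (S i ω)) (μ.map f) := h.map hs hf hc

end Sample

end

end Vale.Agent.P156.Lim
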